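import Vale.Agent.P167.H692.Mk
import Vale.Agent.P167.H72.SD.Lat3

/-!
# P167, general `q`, Stage II: the comparison of `L_z` at a history with polygons

`D = dk p k S A j` with `om p k A` outside, `P = Dq SP pP kP` a polygon. `E` a common part.
* `Up2`: `Bad` is open, the free side of `P` is pushed in, the wired side is pushed out:
  `Up2.le`: `P_P(L) ≤ P_D(L) + P_D(NSf)`;
* `Lo2`: `Bad` is closed, the wired side of `P` is pushed in, the free side is pushed out: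
  `Lo2.le`: `P_D(L) ≤ P_P(L) + P_D(NSlo)`.
There is no common part of the boundaries.
-/

set_option autoImplicit false

namespace Vale.Agent.P167.H692

open Finset Relation Vale.Agent.P167 Vale.Agent.P167.FK
open Vale.Agent.P145.FB (PStep)
open Vale.Agent.P167.FKA (Cor)
open Vale.Agent.P167.E6 (IsPolygon Encloses edges wiredOpen face dir)
open Vale.Agent.P167.H718 (Dq etaQ wE)
open Vale.Agent.P167.H161 (Rd)
open Vale.Agent.P167.H397.Q (blk LZ PL)
open Vale.Agent.P167.H192.Q (kill kill_in kill_out)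
open Vale.Agent.P167.H72.SD (Wr Joined Bank om dk Fr Kc LB RB turn mem_dk NSlo)
open Vale.Agent.P167.H542.Q.Inf (good_kill)

variable {n : ℕ} {p : ZMod n → ℤ × ℤ} {S : Finset (ℤ × ℤ)} {k j : ℕ} {A : Finset (Sym2 (ℤ × ℤ))}
  {m : ℕ} {pP : ZMod m → ℤ × ℤ} {SP : Finset (ℤ × ℤ)} {kP : ℕ} {Bad E P : Finset (ℤ × ℤ)}
  {ζ : Cfg} {Q : ℝ} {s : ℤ × ℤ}

/-- Inner sites. -/
def inn (S : Finset (ℤ × ℤ)) (s : ℤ × ℤ) : Prop := (s.1 + s.2) % 2 = 0 ∨ H192.rf' s ∈ S

/-- **Lower side of `L`**: `Bad` is open, the free side of `P` is pushed in, the wired side is pushed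
out. -/
structure Up2 (p : ZMod n → ℤ × ℤ) (k : ℕ) (S : Finset (ℤ × ℤ)) (A : Finset (Sym2 (ℤ × ℤ))) (j : ℕ)
    (Bad E P : Finset (ℤ × ℤ)) (ζ : Cfg) : Prop where
  bad : Bad ⊆ dk p k S A j
  badj : ∀ v ∈ Bad, ∀ s, (s.1 + s.2) % 2 = 0 → Cor v s → ∃ w ∈ Wr (dk p k S A j) (om p k A),
    ReflTransGen (PStep {v | v ∈ Bad ∨ (v ∉ dk p k S A j ∧ om p k A v = true)}) w s
  sub : E ⊆ dk p k S A j \ Bad
  subP : E ⊆ P
  cl : ∀ x ∈ E, ∀ y ∈ dk p k S A j \ Bad, y ∈ P → ∀ s, inn S s → Cor x s → Cor y s → y ∈ E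
  /-- no square which has an inner site in common with `E` touches the right bank -/
  t3 : ∀ x ∈ E, ∀ u ∈ dk p k S A j, ∀ s, inn S s → Cor x s → Cor u s → ∀ o ∈ RB p k A j, ¬ Cor u o
  /-- `E` does not touch the outer faces -/
  bxo : ∀ x ∈ E, ∀ s, (s.1 + s.2) % 2 = 1 → Cor x s → H192.rf' s ∈ S
  /-- `E` touches the outside in even sites only on the wired arc -/
  bxe : ∀ x ∈ E, ∀ y, y ∉ Dq S p k → ∀ s, (s.1 + s.2) % 2 = 0 → Cor x s → Cor y s →
    s ∈ Wr (dk p k S A j) (om p k A)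
  /-- `E` touches the wired side of `P` only on the wired bank or at `Bad` -/
  t4w : ∀ x ∈ E, ∀ y ∈ dk p k S A j \ Bad, y ∉ P → ζ y = true → ∀ s, (s.1 + s.2) % 2 = 0 →
    Cor x s → Cor y s → s ∈ Wr (dk p k S A j) (om p k A) ∨ ∃ v ∈ Bad, Cor v s
  /-- `E` touches the outside of `P` in odd sites only on the free side of `P` -/
  t4 : ∀ x ∈ E, ∀ y ∈ dk p k S A j \ Bad, y ∉ P → ∀ s, (s.1 + s.2) % 2 = 1 → Cor x s → Cor y s →
    ζ y = false

/-- **Upper side of `L`**: `Bad` is closed, the wired side of `P` is pushed in, the free side is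
pushed out. -/
structure Lo2 (p : ZMod n → ℤ × ℤ) (k : ℕ) (S : Finset (ℤ × ℤ)) (A : Finset (Sym2 (ℤ × ℤ))) (j : ℕ)
    (Bad E P : Finset (ℤ × ℤ)) (ζ : Cfg) : Prop where
  bad : Bad ⊆ dk p k S A j
  badj : ∀ v ∈ Bad, ∀ s, (s.1 + s.2) % 2 = 1 → Cor v s →
    ∃ t, (t ∈ Fr p k S A j ∨ ∃ f, f ∉ S ∧ t = H192.rf f) ∧
      ReflTransGen (PStep {v | v ∈ Bad ∨ v ∈ Kc p k S A j}) s t
  sub : E ⊆ dk p k S A j \ Bad
  subP : E ⊆ P
  cl : ∀ x ∈ E, ∀ y ∈ dk p k S A j \ Bad, y ∈ P → ∀ s, inn S s → Cor x s → Cor y s → y ∈ E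
  /-- no square which has an inner site in common with `E` touches the left bank -/
  t3 : ∀ x ∈ E, ∀ u ∈ dk p k S A j, ∀ s, inn S s → Cor x s → Cor u s → ∀ o ∈ LB p k A j, ¬ Cor u o
  /-- `E` touches the outside of `P` in even sites only on the wired side of `P` -/
  t4 : ∀ x ∈ E, ∀ y ∈ dk p k S A j \ Bad, y ∉ P → ∀ s, (s.1 + s.2) % 2 = 0 → Cor x s → Cor y s →
    s ∈ Wr P ζ
  /-- and in inner odd sites not on the free side of `P` -/
  t4o : ∀ x ∈ E, ∀ y ∈ dk p k S A j \ Bad, y ∉ P → ∀ s, (s.1 + s.2) % 2 = 1 → H192.rf' s ∈ S →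
    Cor x s → Cor y s → ζ y = true
  /-- `E` does not touch the wired arc in even sites -/
  bxe : ∀ x ∈ E, ∀ y, y ∉ Dq S p k → om p k A y = true → ∀ s, (s.1 + s.2) % 2 = 0 → Cor x s →
    ¬ Cor y s
  /-- and not in inner odd sites, through the face -/
  bxi : ∀ x ∈ E, ∀ s, (s.1 + s.2) % 2 = 1 → H192.rf' s ∈ S → Cor x s → ∀ u ∈ dk p k S A j,
    Cor u s → ∀ y, y ∉ Dq S p k → om p k A y = true → Cor y s → ∀ o, (o.1 + o.2) % 2 = 0 →
      Cor u o → ¬ Cor y o

theorem rf_rf {t : ℤ × ℤ} (h : Odd (t.1 + t.2)) : H192.rf (H192.rf' t) = t :=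
  H192.rf_rf' (by rwa [Int.not_even_iff_odd])

/-- A square off the domain which is closed has outer faces only. -/
theorem outer_of (hA : A ⊆ edges S) {v t : ℤ × ℤ} (hv : v ∉ Dq S p k) (h1 : om p k A v = false)
    (ht : Odd (t.1 + t.2)) (hvt : Cor v t) : H192.rf' t ∉ S := by
  obtain ⟨f, hf, rfl⟩ := face_of (S := S) (p := p) (k := k) hv
    (by rw [etaQ_om hA hv]; exact h1) ht hvt
  have h2 : H192.rf' (H192.rf f) = f := rf_inj (rf_rf ht)
  rwa [h2]

theorem good_om (hA : A ⊆ edges S) : Good (om p k A) := by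
  obtain ⟨T, -, e⟩ := QG.exists_cf (p := p) (k := k) hA
  show Good (H192.cfg (wiredOpen p k A))
  rw [e]
  exact f_good.1 _ _ _ H718.good_etaQ

/-- Open `Bad`: the wired sites are joined. -/
theorem joined_bad (hp : IsPolygon p) (hk : k < n) (hA : A ⊆ edges S)
    (bad : Bad ⊆ dk p k S A j)
    (badj : ∀ v ∈ Bad, ∀ s, (s.1 + s.2) % 2 = 0 → Cor v s → ∃ w ∈ Wr (dk p k S A j) (om p k A),
      ReflTransGen (PStep {v | v ∈ Bad ∨ (v ∉ dk p k S A j ∧ om p k A v = true)}) w s) :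
    Joined (dk p k S A j \ Bad) (kill false Bad (om p k A))
      (Wr (dk p k S A j \ Bad) (kill false Bad (om p k A))) := by
  have hsub : {v | v ∈ Bad ∨ (v ∉ dk p k S A j ∧ om p k A v = true)} ⊆
      op (cf (dk p k S A j \ Bad) (kill false Bad (om p k A)) ∅) := by
    rintro v (hv | ⟨h1, h2⟩)
    · show cf _ _ ∅ v = true
      unfold cf
      rw [if_neg fun h1 => (mem_sdiff.1 h1).2 hv, kill_in hv]
      rfl
    · show cf _ _ ∅ v = true
      unfold cf
      rw [if_neg fun h3 => h1 (mem_sdiff.1 h3).1, kill_out fun h4 => h1 (bad h4)]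
      exact h2
  have key : ∀ s ∈ Wr (dk p k S A j \ Bad) (kill false Bad (om p k A)),
      ∃ w ∈ Wr (dk p k S A j) (om p k A),
        PC (cf (dk p k S A j \ Bad) (kill false Bad (om p k A)) ∅) w s := by
    rintro s ⟨h1, v, hv, h2, h3⟩
    by_cases hvB : v ∈ Bad
    · obtain ⟨w, hw, h4⟩ := badj v hvB s (Int.even_iff.1 h1) h3
      exact ⟨w, hw, rtg_mono' hsub h4⟩
    · rw [kill_out hvB] at h2
      exact ⟨s, ⟨h1, v, fun h => hv (mem_sdiff.2 ⟨h, hvB⟩), h2, h3⟩, ReflTransGen.refl⟩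
  intro s hs t ht
  obtain ⟨w, hw, h1⟩ := key s hs
  obtain ⟨w', hw', h2⟩ := key t ht
  have h3 := H72.SD.joined_dk hp hk hA j w hw w' hw'
  have h4 : PC (cf (dk p k S A j \ Bad) (kill false Bad (om p k A)) ∅) w w' := by
    refine rtg_mono' (fun v hv => hsub (Or.inr ?_)) h3
    have hv' : cf (dk p k S A j) (om p k A) ∅ v = true := hv
    unfold cf at hv'
    by_cases h5 : v ∈ dk p k S A j
    · rw [if_pos h5] at hv'
      simp at hv'
    · rw [if_neg h5] at hv'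
      exact ⟨h5, hv'⟩
  exact ((FKA.rtg_symm h1).trans h4).trans h2

theorem Up2.bank (h : Up2 p k S A j Bad E P ζ) (hA : A ⊆ edges S) :
    Bank E P ζ (Wr (dk p k S A j \ Bad) (kill false Bad (om p k A))) := by
  have hB : ∀ {v s : ℤ × ℤ}, v ∈ Bad → Even (s.1 + s.2) → Cor v s →
      s ∈ Wr (dk p k S A j \ Bad) (kill false Bad (om p k A)) := fun hv hs hvs =>
    ⟨hs, _, fun h1 => (mem_sdiff.1 h1).2 hv, by rw [kill_in hv]; rfl, hvs⟩
  intro s x y hs hx hxs hyE hy hys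
  have hs' := Int.even_iff.1 hs
  by_cases hyD : y ∈ dk p k S A j \ Bad
  · have hyP : y ∉ P := fun h1 => hyE (h.cl x hx y hyD h1 s (Or.inl hs') hxs hys)
    rcases hy with h1 | h1
    · exact absurd h1 hyP
    · rcases h.t4w x hx y hyD hyP h1 s hs' hxs hys with h2 | ⟨v, hv, h2⟩
      · exact wr_kill h.bad h2
      · exact hB hv hs h2
  · by_cases hyB : y ∈ Bad
    · exact hB hyB hs hys
    have hyd : y ∉ dk p k S A j := fun h1 => hyD (mem_sdiff.2 ⟨h1, hyB⟩)
    have hxd : x ∈ dk p k S A j := (mem_sdiff.1 (h.sub hx)).1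
    obtain ⟨u, u', o, hu, hu', hus, hus', huo, huo', ho⟩ :=
      turn (X := (↑(dk p k S A j) : Set (ℤ × ℤ))) (mem_coe.2 hxd)
        (fun h1 => hyd (mem_coe.1 h1)) hxs hys
    rw [mem_coe] at hu hu'
    refine wr_kill h.bad ?_
    by_cases hq : u' ∈ Dq S p k
    · have hR : u' ∈ Rd p k S A j := by
        by_contra h1
        exact hu' (mem_dk.2 ⟨hq, h1⟩)
      cases hc : om p k A u' with
      | true => exact ⟨hs, u', hu', hc, hus'⟩
      | false =>
        exact absurd huo (h.t3 x hx u hu s (Or.inl hs') hxs hus o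
          (H72.SD.closed_RB hA hR hc (by omega) huo'))
    · exact h.bxe x hx u' hq s hs' hxs hus'

theorem Up2.exit (h : Up2 p k S A j Bad E (Dq SP pP kP) (etaQ pP kP)) (hA : A ⊆ edges S)
    (hpP : IsPolygon pP) (hSP : Encloses pP SP) :
    Exit E (dk p k S A j \ Bad) (kill false Bad (om p k A)) (Dq SP pP kP) (etaQ pP kP) := by
  refine exit_poly hpP hSP fun t x y ht hx hxt hyE hy hyt => ?_
  have ht' := Int.odd_iff.1 ht
  have hin := h.bxo x hx t ht' hxt
  by_cases hyD : y ∈ dk p k S A j \ Bad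
  · have hyP : y ∉ Dq SP pP kP := fun h1 => hyE (h.cl x hx y hyD h1 t (Or.inr hin) hxt hyt)
    exact face_of hyP (h.t4 x hx y hyD hyP t ht' hxt hyt) ht hyt
  · exfalso
    have hyc : kill false Bad (om p k A) y = false := hy.resolve_left hyD
    have hyB : y ∉ Bad := by
      intro h1
      rw [kill_in h1] at hyc
      exact Bool.noConfusion hyc
    rw [kill_out hyB] at hyc
    have hxd : x ∈ dk p k S A j := (mem_sdiff.1 (h.sub hx)).1
    by_cases hq : y ∈ Dq S p k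
    · have hR : y ∈ Rd p k S A j := by
        by_contra h1
        exact hyD (mem_sdiff.2 ⟨mem_dk.2 ⟨hq, h1⟩, hyB⟩)
      exact h.t3 x hx x hxd t (Or.inr hin) hxt hxt t (H72.SD.closed_RB hA hR hyc ht' hyt) hxt
    · exact outer_of hA hq hyc ht hyt hin

/-- **Lower side.** -/
theorem Up2.le (h : Up2 p k S A j Bad E (Dq SP pP kP) (etaQ pP kP)) (hQ : 1 ≤ Q) (hp : IsPolygon p)
    (hS : Encloses p S) (hk : k + 1 < n) (hA : A ⊆ edges S) (hpP : IsPolygon pP)
    (hSP : Encloses pP SP) (hkP : kP + 1 < m) (hs : Odd (s.1 + s.2)) (hsE : ∀ v, Cor v s → v ∈ E) :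
    Ex Q (Dq SP pP kP) (etaQ pP kP) ((LZ (H192.ro (pP (-1))) s).indicator 1) ≤
      Ex Q (dk p k S A j) (om p k A) ((LZ (H192.ro (p (-1))) s).indicator 1) +
        Ex Q (dk p k S A j) (om p k A) ((NSf (dk p k S A j) (om p k A) Bad).indicator 1) :=
  lz_lower hQ (good_om hA) H718.good_etaQ h.bad (mark_dk hp hS hA hk j) h.sub h.subP
    (joined_bad hp (by omega) hA h.bad h.badj) (h.bank hA) (h.exit hA hpP hSP)
    (wr_mem hpP hSP hkP) hs hsE

theorem Lo2.bank (h : Lo2 p k S A j Bad E P ζ) (hA : A ⊆ edges S) :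
    Bank E (dk p k S A j \ Bad) (kill true Bad (om p k A)) (Wr P ζ) := by
  intro s x y hs hx hxs hyE hy hys
  have hs' := Int.even_iff.1 hs
  by_cases hyD : y ∈ dk p k S A j \ Bad
  · have hyP : y ∉ P := fun h1 => hyE (h.cl x hx y hyD h1 s (Or.inl hs') hxs hys)
    exact h.t4 x hx y hyD hyP s hs' hxs hys
  · exfalso
    have hyc : kill true Bad (om p k A) y = true := hy.resolve_left hyD
    have hyB : y ∉ Bad := by
      intro h1
      rw [kill_in h1] at hyc
      exact Bool.noConfusion hyc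
    rw [kill_out hyB] at hyc
    have hxd : x ∈ dk p k S A j := (mem_sdiff.1 (h.sub hx)).1
    by_cases hq : y ∈ Dq S p k
    · have hR : y ∈ Rd p k S A j := by
        by_contra h1
        exact hyD (mem_sdiff.2 ⟨mem_dk.2 ⟨hq, h1⟩, hyB⟩)
      exact h.t3 x hx x hxd s (Or.inl hs') hxs hxs s (H72.SD.open_LB hA hR hyc hs' hys) hxs
    · exact h.bxe x hx y hq hyc s hs' hxs hys

theorem Lo2.exit (h : Lo2 p k S A j Bad E P ζ) (hp : IsPolygon p) (hS : Encloses p S)
    (hA : A ⊆ edges S) :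
    Exit E P ζ (dk p k S A j \ Bad) (kill true Bad (om p k A)) := by
  refine exit_dk hp hS hA h.bad fun t x y ht hx hxt hyE hy hyt => ?_
  have ht' := Int.odd_iff.1 ht
  by_cases hin : H192.rf' t ∈ S
  swap
  · exact ⟨t, Or.inr ⟨_, hin, (rf_rf ht).symm⟩, ReflTransGen.refl⟩
  by_cases hyD : y ∈ dk p k S A j \ Bad
  · exfalso
    have hyP : y ∉ P := fun h1 => hyE (h.cl x hx y hyD h1 t (Or.inr hin) hxt hyt)
    have h1 := h.t4o x hx y hyD hyP t ht' hin hxt hyt
    rw [hy.resolve_left hyP] at h1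
    exact Bool.noConfusion h1
  · by_cases hyB : y ∈ Bad
    · exact h.badj y hyB t ht' hyt
    have hyd : y ∉ dk p k S A j := fun h1 => hyD (mem_sdiff.2 ⟨h1, hyB⟩)
    have hxd : x ∈ dk p k S A j := (mem_sdiff.1 (h.sub hx)).1
    obtain ⟨u, u', o, hu, hu', hut, hut', huo, huo', ho⟩ :=
      turn (X := (↑(dk p k S A j) : Set (ℤ × ℤ))) (mem_coe.2 hxd)
        (fun h1 => hyd (mem_coe.1 h1)) hxt hyt
    rw [mem_coe] at hu hu'
    by_cases hq : u' ∈ Dq S p k
    · have hR : u' ∈ Rd p k S A j := by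
        by_contra h1
        exact hu' (mem_dk.2 ⟨hq, h1⟩)
      cases hc : om p k A u' with
      | false => exact ⟨t, Or.inl ⟨ht', u', hR, hc, hut'⟩, ReflTransGen.refl⟩
      | true =>
        exact absurd huo (h.t3 x hx u hu t (Or.inr hin) hxt hut o
          (H72.SD.open_LB hA hR hc (by omega) huo'))
    · exfalso
      cases hc : om p k A u' with
      | false => exact outer_of hA hq hc ht hut' hin
      | true => exact h.bxi x hx t ht' hin hxt u hu hut u' hq hc hut' o (by omega) huo huo'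

/-- **Upper side.** -/
theorem Lo2.le (h : Lo2 p k S A j Bad E (Dq SP pP kP) (etaQ pP kP)) (hQ : 1 ≤ Q) (hp : IsPolygon p)
    (hS : Encloses p S) (hk : k + 1 < n) (hA : A ⊆ edges S) (hpP : IsPolygon pP)
    (hSP : Encloses pP SP) (hkP : kP + 1 < m) (hs : Odd (s.1 + s.2)) (hsE : ∀ v, Cor v s → v ∈ E) :
    Ex Q (dk p k S A j) (om p k A) ((LZ (H192.ro (p (-1))) s).indicator 1) ≤
      Ex Q (Dq SP pP kP) (etaQ pP kP) ((LZ (H192.ro (pP (-1))) s).indicator 1) +
        Ex Q (dk p k S A j) (om p k A) ((NSlo (dk p k S A j) (om p k A) Bad ∅).indicator 1) :=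
  lz_upper hQ (good_om hA) H718.good_etaQ h.bad (mark_dk hp hS hA hk j) h.sub h.subP
    (joined_dq hpP) (h.bank hA) (h.exit hp hS hA) (wr_mem hpP hSP hkP) hs hsE

end Vale.Agent.P167.H692
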