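import Vale.Agent.P167.H397.Q.S2Defs
import Vale.Agent.P167.H72.SD.Lat

/-!
# P167, general `q`, Stage II, [S2-CLOSE]: the sandwich for the event `L_z`

`C` a common part of the domains `P` (outside `ζ`) and `D` (outside `η`).
* `Bank C P ζ (Wr D η)` (H72): the even sites in which `C` meets squares of `P \ C` or `ζ`-open
  squares outside of `P` are on the wired bank of `D`;
* `Exit C D η P ζ`: from the odd sites in which `C` meets squares of `D \ C` or `η`-closed squares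
  outside of `D` one can go to infinity through `ζ`-closed squares outside of `P`.
Then `Ex P ζ 1_(LZ wP s) ≤ Ex D η 1_(LZ w s)` (`lz_sand`). All arcs may be pushed; the lemma is used
in both directions.
-/

set_option autoImplicit false

namespace Vale.Agent.P167.H692

open Finset Relation Vale.Agent.P167.FK
open Vale.Agent.P145.FB (PStep)
open Vale.Agent.P167.FKA (Cor cor_pa cor_pb)
open Vale.Agent.P167.H259 (PC_mono cf_mono)
open Vale.Agent.P167.H397.Q (blk LZ)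
open Vale.Agent.P167.H72.SD (sqr cor_sqr Bank Joined Wr)

variable {Q : ℝ} {C D P : Finset (ℤ × ℤ)} {η ζ : Cfg} {w wP s : ℤ × ℤ}

/-- The dual sites which are reached from `t` without crossing `B` are infinitely many. -/
def Far (B : Set (ℤ × ℤ)) (t : ℤ × ℤ) : Prop := {t' : ℤ × ℤ | ReflTransGen (PStep Bᶜ) t t'}.Infinite

/-- The exit condition. -/
def Exit (C D : Finset (ℤ × ℤ)) (η : Cfg) (P : Finset (ℤ × ℤ)) (ζ : Cfg) : Prop :=
  ∀ t a v : ℤ × ℤ, Odd (t.1 + t.2) → a ∈ C → Cor a t → v ∉ C → (v ∈ D ∨ η v = false) → Cor v t →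
    {t' : ℤ × ℤ | ReflTransGen (PStep {v | v ∉ P ∧ ζ v = false}) t t'}.Infinite

theorem rtg_mono' {A B : Set (ℤ × ℤ)} (h : A ⊆ B) {t t' : ℤ × ℤ}
    (h1 : ReflTransGen (PStep A) t t') : ReflTransGen (PStep B) t t' :=
  H166.rtg_mono (fun _ hv => h hv) h1

theorem blk_mono {ω ω' : Cfg} (h : ∀ v, ω v = true → ω' v = true) (w : ℤ × ℤ) :
    blk ω w ⊆ blk ω' w := fun v hv => ⟨h v hv.1, PC_mono h hv.2⟩

theorem lz_mono {ω ω' : Cfg} (h : ∀ v, ω v = true → ω' v = true) (hω : ω ∈ LZ w s) :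
    ω' ∈ LZ w s :=
  Set.Finite.subset hω fun _ ht => rtg_mono' (Set.compl_subset_compl.2 (blk_mono h w)) ht

theorem incF_lz : IncF ((LZ w s).indicator 1) := by
  intro ω ω' h
  by_cases h1 : ω ∈ LZ w s
  · rw [Set.indicator_of_mem h1, Set.indicator_of_mem (lz_mono h h1)]
    simp
  · rw [Set.indicator_of_notMem h1]
    exact Set.indicator_nonneg (fun _ _ => zero_le_one) _

/-- The wired cluster of `P` inside `C` is contained in the wired cluster of `D`. -/
theorem blk_sub (hCP : C ⊆ P) (hCD : C ⊆ D) (hW : Joined D η (Wr D η))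
    (hB : Bank C P ζ (Wr D η)) (hw : w ∈ Wr D η)
    (hwe : Even (wP.1 + wP.2)) (hwP : ∃ v, v ∉ P ∧ ζ v = true ∧ Cor v wP)
    {T S : Finset (ℤ × ℤ)} (hT : T ⊆ P \ C) {a : ℤ × ℤ} (ha : a ∈ C)
    (h : a ∈ blk (cf P ζ (T ∪ S)) wP) : a ∈ blk (cf D η S) w := by
  have hJ : ∀ w' ∈ Wr D η, PC (cf D η S) w w' := fun w' hw' =>
    PC_mono (cf_mono (empty_subset S)) (hW w hw w' hw')
  obtain ⟨h1, h2⟩ := h
  have haT : a ∉ T := fun h => (mem_sdiff.1 (hT h)).2 ha
  have haS : a ∈ S := by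
    simpa [cf, hCP ha, haT] using h1
  refine ⟨by simp [cf, hCD ha, haS], ?_⟩
  have key : ∀ x, PC (cf P ζ (T ∪ S)) wP x → Even (x.1 + x.2) ∧
      ((PC (cf D η S) w x ∧ ∃ a ∈ C, Cor a x) ∨ ∃ v, v ∉ C ∧ (v ∈ P ∨ ζ v = true) ∧ Cor v x) := by
    intro x hx
    induction hx with
    | refl =>
      obtain ⟨v, hv1, hv2, hv3⟩ := hwP
      exact ⟨hwe, Or.inr ⟨v, fun h => hv1 (hCP h), Or.inr hv2, hv3⟩⟩
    | @tail x y _ hxy ih =>
      obtain ⟨hxe, ih⟩ := ih
      obtain ⟨hcx, hcy⟩ := cor_sqr hxy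
      refine ⟨H72.SD.even_step hxy hxe, ?_⟩
      by_cases hsC : sqr x y ∈ C
      · have hopen : cf P ζ (T ∪ S) (sqr x y) = true := hxy.2.2
        have hsT : sqr x y ∉ T := fun h => (mem_sdiff.1 (hT h)).2 hsC
        have hsS : sqr x y ∈ S := by simpa [cf, hCP hsC, hsT] using hopen
        have hst : PStep (op (cf D η S)) x y := by
          refine ⟨hxy.1, hxy.2.1, ?_⟩
          show cf D η S (sqr x y) = true
          simp [cf, hCD hsC, hsS]
        rcases ih with ⟨h1, -⟩ | ⟨v, hvC, hvP, hvx⟩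
        · exact Or.inl ⟨h1.tail hst, _, hsC, hcy⟩
        · exact Or.inl ⟨(hJ x (hB x _ v hxe hsC hcx hvC hvP hvx)).tail hst, _, hsC, hcy⟩
      · have hopen : cf P ζ (T ∪ S) (sqr x y) = true := hxy.2.2
        have hP : sqr x y ∈ P ∨ ζ (sqr x y) = true := by
          by_cases hp : sqr x y ∈ P
          · exact Or.inl hp
          · simp only [cf, hp, if_false] at hopen
            exact Or.inr hopen
        exact Or.inr ⟨_, hsC, hP, hcy⟩
  obtain ⟨hae, h3 | ⟨v, hv1, hv2, hv3⟩⟩ := key _ h2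
  · exact h3.1
  · exact hJ _ (hB _ a v hae ha (cor_pa a).1 hv1 hv2 hv3)

theorem odd_step {A : Set (ℤ × ℤ)} {u v : ℤ × ℤ} (h : PStep A u v) (hu : Odd (u.1 + u.2)) :
    Odd (v.1 + v.2) := by
  obtain ⟨h1, h2, -⟩ := h
  rw [Int.odd_iff] at hu ⊢
  omega

/-- The event `L` for `P` implies the event `L` for `D`. -/
theorem lz_imp (hCP : C ⊆ P) (hCD : C ⊆ D) (hW : Joined D η (Wr D η))
    (hB : Bank C P ζ (Wr D η)) (hE : Exit C D η P ζ) (hw : w ∈ Wr D η)
    (hwe : Even (wP.1 + wP.2)) (hwP : ∃ v, v ∉ P ∧ ζ v = true ∧ Cor v wP)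
    (hso : Odd (s.1 + s.2)) (hs : ∀ v, Cor v s → v ∈ C)
    {T S : Finset (ℤ × ℤ)} (hT : T ⊆ P \ C) (h : cf P ζ (T ∪ S) ∈ LZ wP s) :
    cf D η S ∈ LZ w s := by
  by_contra hcon
  have hinf : {t : ℤ × ℤ | ReflTransGen (PStep (blk (cf D η S) w)ᶜ) s t}.Infinite := hcon
  have hfin : {t : ℤ × ℤ | ReflTransGen (PStep (blk (cf P ζ (T ∪ S)) wP)ᶜ) s t}.Finite := h
  -- a dual path from `s` stays in `C`, or it can be continued to infinity
  have key : ∀ t, ReflTransGen (PStep (blk (cf D η S) w)ᶜ) s t → Odd (t.1 + t.2) ∧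
      (ReflTransGen (PStep (blk (cf P ζ (T ∪ S)) wP)ᶜ) s t ∧ (t = s ∨ ∃ a ∈ C, Cor a t)) := by
    intro t ht
    induction ht with
    | refl => exact ⟨hso, ReflTransGen.refl, Or.inl rfl⟩
    | @tail x y hx hxy ih =>
      obtain ⟨hxo, h1, h2⟩ := ih
      obtain ⟨hcx, hcy⟩ := cor_sqr hxy
      refine ⟨odd_step hxy hxo, ?_⟩
      by_cases hsC : sqr x y ∈ C
      · refine ⟨h1.tail ⟨hxy.1, hxy.2.1, fun h3 => hxy.2.2 ?_⟩, Or.inr ⟨_, hsC, hcy⟩⟩
        exact blk_sub hCP hCD hW hB hw hwe hwP hT hsC h3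
      · exfalso
        -- the path leaves `C`
        obtain ⟨a, ha, hax⟩ : ∃ a ∈ C, Cor a x := by
          rcases h2 with rfl | h2
          · exact absurd (hs _ hcx) hsC
          · exact h2
        have hv : sqr x y ∈ D ∨ η (sqr x y) = false := by
          by_contra h3
          push Not at h3
          obtain ⟨h3, h4'⟩ := h3
          have h4 : η (sqr x y) = true := by simpa using h4'
          apply hxy.2.2
          have h5 : pa (sqr x y) ∈ Wr D η := ⟨(cor_pa _).2, _, h3, h4, (cor_pa _).1⟩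
          have h6 : cf D η S (sqr x y) = true := by
            unfold cf
            rw [if_neg h3]
            exact h4
          exact ⟨h6, PC_mono (cf_mono (empty_subset S)) (hW w hw _ h5)⟩
        have hI := hE x a _ hxo ha hax hsC hv hcx
        refine hI (hfin.subset fun t' ht' => ?_)
        refine h1.trans (rtg_mono' ?_ ht')
        rintro v ⟨hv1, hv2⟩ ⟨hv3, -⟩
        simp [cf, hv1, hv2] at hv3
  exact hinf (hfin.subset fun t ht => (key t ht).2.1)

/-- **The sandwich for the event `L_z`.** -/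
theorem lz_sand (hQ : 1 ≤ Q) (hη : Good η) (hζ : Good ζ) (hCP : C ⊆ P) (hCD : C ⊆ D)
    (hW : Joined D η (Wr D η)) (hB : Bank C P ζ (Wr D η)) (hE : Exit C D η P ζ) (hw : w ∈ Wr D η)
    (hwe : Even (wP.1 + wP.2)) (hwP : ∃ v, v ∉ P ∧ ζ v = true ∧ Cor v wP)
    (hso : Odd (s.1 + s.2)) (hs : ∀ v, Cor v s → v ∈ C) :
    Ex Q P ζ ((LZ wP s).indicator 1) ≤ Ex Q D η ((LZ w s).indicator 1) := by
  refine H72.SD.sand_bank hQ hη hζ hCP hCD incF_lz incF_lz hW hB (fun T hT S hS => ?_)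
  by_cases h : cf P ζ (T ∪ S) ∈ LZ wP s
  · rw [Set.indicator_of_mem h, Set.indicator_of_mem
      (lz_imp hCP hCD hW hB hE hw hwe hwP hso hs hT h)]
    simp
  · rw [Set.indicator_of_notMem h]
    exact Set.indicator_nonneg (fun _ _ => zero_le_one) _

end Vale.Agent.P167.H692
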