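import Vale.Agent.P167.H192.S2.LZq
import Vale.Agent.P167.H542.Q.Inf
import Vale.Agent.P167.H72.SD.NS
import Vale.Agent.P167.H692.Lz

/-!
# P167, general `q`, Stage II, [S2-CLOSE] (b): the event `L` and clusters which do not touch the
boundary

`e₀`: a medial edge whose left site is on the wired bank and whose right site is joined to infinity
by closed squares off `D`. The clusters of colour `c` of the sites `T` in `D` which do not touch the
boundary of colour `c` are not seen by the loop through `e₀`; so `LZ` does not change when the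
squares which touch them get the colour `!c` (`float_iff`).
-/

set_option autoImplicit false

namespace Vale.Agent.P167.H692

open Finset Relation Vale.Agent.P167 Vale.Agent.P167.FK
open Vale.Agent.P145.FB (PStep)
open Vale.Agent.P167.FKA (Cor cor_pa cor_pb cor_of_step)
open Vale.Agent.P167.H259 (PC_mono cf_mono)
open Vale.Agent.P167.H397.Q (blk LZ)
open Vale.Agent.P167.H192.Q (kill kill_in kill_out MonC)
open Vale.Agent.P167.H192.TA (Pw)
open Vale.Agent.P167.H632 (pr cs)
open Vale.Agent.P167.H542.Q.Inf (Oc CT Par Bd Ou CT_closed par_CT good_kill)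
open Vale.Agent.P167.H72.SD (Wr Joined)

variable {Q : ℝ} {D B : Finset (ℤ × ℤ)} {η ω : Cfg} {w s : ℤ × ℤ} {e₀ : Ed} {T : Set (ℤ × ℤ)}
  {c : Bool} {ℓ : Finset Ed}

/-- The mark: a medial edge between the wired bank and the free bank. -/
structure Mark (D : Finset (ℤ × ℤ)) (η : Cfg) (w : ℤ × ℤ) (e₀ : Ed) : Prop where
  wired : w ∈ Wr D η
  left : ReflTransGen (PStep {v | v ∉ D ∧ η v = true}) w (ls e₀)
  right : {t : ℤ × ℤ | ReflTransGen (PStep {v | v ∉ D ∧ η v = false}) (rs e₀) t}.Infinite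

theorem cor_ls (e : Ed) : Cor (hdv e) (ls e) := by
  rcases e with ⟨x, y⟩ | ⟨x, y⟩ <;> by_cases h : Even (x + y) <;>
    simp only [hdv, ls, h, if_true, if_false] <;> constructor <;> dsimp only <;> omega

theorem cor_rs (e : Ed) : Cor (hdv e) (rs e) := by
  rcases e with ⟨x, y⟩ | ⟨x, y⟩ <;> by_cases h : Even (x + y) <;>
    simp only [hdv, rs, h, if_true, if_false] <;> constructor <;> dsimp only <;> omega

theorem good_of (hη : Good η) (hω : ∀ v, v ∉ D → ω v = η v) : Good ω := by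
  have h1 : ω = cf D η (D.filter fun v => ω v = true) := by
    funext v
    unfold cf
    by_cases hv : v ∈ D
    · rw [if_pos hv]
      simp [hv]
    · rw [if_neg hv, hω v hv]
  rw [h1]
  exact f_good.1 D η _ hη

theorem Mark.pc (h : Mark D η w e₀) (hω : ∀ v, v ∉ D → ω v = η v) : PC ω w (ls e₀) := by
  refine rtg_mono' ?_ h.left
  rintro v ⟨hv, h1⟩
  show ω v = true
  rw [hω v hv, h1]

theorem Mark.far (h : Mark D η w e₀) (hω : ∀ v, v ∉ D → ω v = η v) :
    H192.S2.Far ω w (rs e₀) := by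
  intro M
  by_contra h2
  push Not at h2
  refine h.right ((H192.S2.nm_finite M).subset fun y hy => ?_)
  by_contra h4
  refine h2 y (not_lt.1 h4) (H192.S2.dc_unb (rtg_mono' ?_ hy))
  rintro v ⟨hv, h1⟩ (h3 : ω v = true)
  rw [hω v hv, h1] at h3
  exact Bool.noConfusion h3

/-- The loop through the mark. -/
theorem Mark.loop (h : Mark D η w e₀) (hη : Good η) (hω : ∀ v, v ∉ D → ω v = η v) :
    ∃ ℓ, IsLoop ω ℓ ∧ e₀ ∈ ℓ ∧ ∀ e ∈ ℓ, PC ω w (ls e) := by
  obtain ⟨ℓ, h1, h2⟩ := good_of hη hω e₀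
  exact ⟨ℓ, h1, h2, fun e he => (h.pc hω).trans (PC_of_loop h1 h2 he)⟩

theorem Mark.iff (h : Mark D η w e₀) (hω : ∀ v, v ∉ D → ω v = η v) (h1 : IsLoop ω ℓ)
    (h2 : e₀ ∈ ℓ) (hs : Odd (s.1 + s.2)) : ω ∈ LZ w s ↔ W ℓ s = 1 := by
  rw [H192.S2.mem_lz]
  exact H192.S2.lz_iff h1 (fun e he => (h.pc hω).trans (PC_of_loop h1 h2 he)) h2 (h.far hω) hs

/-- The mark is not touched by the clusters which do not touch the boundary. -/
theorem Mark.bd (h : Mark D η w e₀) : (Bd true D η w ∧ Even (w.1 + w.2)) ∧ Bd false D η (rs e₀) := by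
  constructor
  · obtain ⟨h1, v, hv, h2, h3⟩ := h.wired
    exact ⟨⟨v, hv, h2, h3⟩, h1⟩
  · by_contra h1
    refine h.right ((Set.finite_singleton (rs e₀)).subset fun t ht => ?_)
    rcases ht.cases_head with h2 | ⟨y, h2, -⟩
    · exact h2.symm
    · exact absurd ⟨_, h2.2.2.1, h2.2.2.2, (cor_of_step h2).1⟩ h1

/-- A path of colour `c` does not enter the clusters which do not touch the boundary. -/
theorem avoid (hT : Par c T) (hω : ∀ v, v ∉ D → ω v = η v)
    (hK : ∀ y ∈ CT c D T ω, ¬ Bd c D η y) {x y : ℤ × ℤ} (hx : x ∉ CT c D T ω)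
    (hxp : (x.1 + x.2) % 2 = pr c) (h : Pw (cs c ω) x y) : y ∉ CT c D T ω := by
  have key : y ∉ CT c D T ω ∧ (y.1 + y.2) % 2 = pr c := by
    induction h with
    | refl => exact ⟨hx, hxp⟩
    | @tail a b _ hab ih =>
      obtain ⟨q, hq⟩ : ∃ q : ℤ × ℤ, q = (min a.1 b.1, min a.2 b.2) := ⟨_, rfl⟩
      have hcor := cor_of_step hab
      have hcol : ω q = c := by rw [hq]; exact hab.2.2
      rw [← hq] at hcor
      have hbp : (b.1 + b.2) % 2 = pr c := by
        have h1 := hab.1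
        have h2 := hab.2.1
        have h3 := ih.2
        omega
      refine ⟨fun hb => ?_, hbp⟩
      by_cases hqD : q ∈ D
      · exact ih.1 (CT_closed hT hqD hcol hb hcor.2 hcor.1 ih.2)
      · exact hK b hb ⟨q, hqD, by rw [← hω q hqD]; exact hcol, hcor.2⟩
  exact key.1

/-- **The loop through the mark does not see the clusters which do not touch the boundary.** -/
theorem Mark.stay (h : Mark D η w e₀) (hT : Par c T) (hω : ∀ v, v ∉ D → ω v = η v)
    (hK : ∀ y ∈ CT c D T ω, ¬ Bd c D η y) (h1 : IsLoop ω ℓ) (h2 : e₀ ∈ ℓ) :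
    IsLoop (kill c (FKA.nb D (CT c D T ω)) ω) ℓ := by
  refine s_loc ω _ ℓ h1 fun v hv => ?_
  obtain ⟨e, he, rfl⟩ := Finset.mem_image.1 hv
  by_cases hn : hdv e ∈ FKA.nb D (CT c D T ω)
  swap
  · exact (kill_out hn).symm
  rw [kill_in hn]
  obtain ⟨hD, k, hk, hkq⟩ := FKA.mem_nb.1 hn
  by_contra hc
  have hcol : ω (hdv e) = c := by
    cases c <;> cases h3 : ω (hdv e) <;> simp_all
  cases c with
  | true =>
    have h4 : ls e ∉ CT true D T ω := avoid hT hω hK (x := w)
      (fun h5 => hK w h5 h.bd.1.1) (Int.even_iff.1 h.bd.1.2)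
      ((h.pc hω).trans (PC_of_loop h1 h2 he))
    exact h4 (CT_closed hT hD hcol hk hkq (cor_ls e) (Int.even_iff.1 (even_ls e)))
  | false =>
    have h4 : rs e ∉ CT false D T ω := by
      refine avoid hT hω hK (x := rs e₀) (fun h5 => hK _ h5 h.bd.2)
        (Int.odd_iff.1 (odd_rs e₀)) ?_
      rw [H632.cs_false]
      exact H192.S2.dc_loop h1 h2 he
    exact h4 (CT_closed hT hD hcol hk hkq (cor_rs e) (Int.odd_iff.1 (odd_rs e)))

theorem kill_off {U : Finset (ℤ × ℤ)} (hU : U ⊆ D) (hω : ∀ v, v ∉ D → ω v = η v) :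
    ∀ v, v ∉ D → kill c U ω v = η v := fun v hv => by
  rw [kill_out fun h => hv (hU h), hω v hv]

/-- **`LZ` does not change** when clusters which do not touch the boundary are recoloured. -/
theorem Mark.float (h : Mark D η w e₀) (hη : Good η) (hT : Par c T)
    (hω : ∀ v, v ∉ D → ω v = η v) (hK : ∀ y ∈ CT c D T ω, ¬ Bd c D η y)
    (hs : Odd (s.1 + s.2)) :
    ω ∈ LZ w s ↔ kill c (FKA.nb D (CT c D T ω)) ω ∈ LZ w s := by
  obtain ⟨ℓ, h1, h2, -⟩ := h.loop hη hω
  rw [h.iff hω h1 h2 hs, h.iff (kill_off (fun v hv => (FKA.mem_nb.1 hv).1) hω)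
    (h.stay hT hω hK h1 h2) h2 hs]

end Vale.Agent.P167.H692
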