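import Vale.Agent.P167.H692.Flo

/-!
# P167, general `q`, Stage II, [S2-CLOSE] (b): freezing squares

`frz_up`: `Bad` closed: `P_D(LZ) ≤ P_{D''}(LZ) + P_D(NSlo)`;
`frz_lo`: `Bad` open: `P_{D''}(LZ) ≤ P_D(LZ) + P_D(NSf)`;
`lz_upper`, `lz_lower`: with the sandwich `lz_sand`.
-/

set_option autoImplicit false

namespace Vale.Agent.P167.H692

open Finset Relation Vale.Agent.P167 Vale.Agent.P167.FK
open Vale.Agent.P145.FB (PStep)
open Vale.Agent.P167.FKA (Cor Ex_mono Ex_const Ex_add Ex_nonneg Ex_congr ind_compl ind_nonneg ind_le_one)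
open Vale.Agent.P167.H397.Q (blk LZ)
open Vale.Agent.P167.H192.Q (kill kill_in kill_out MonC)
open Vale.Agent.P167.H192.TA (Pw)
open Vale.Agent.P167.H632 (pr cs)
open Vale.Agent.P167.H542.Q.Inf (Oc CT Par Bd Ou CT_closed par_CT good_kill)
open Vale.Agent.P167.H72.SD (Wr Joined Bank NSlo)

variable {Q : ℝ} {C D P Bad : Finset (ℤ × ℤ)} {η ζ ω : Cfg} {w wP s : ℤ × ℤ} {e₀ : Ed} {c : Bool}

/-- A path of closed squares of the domain `D` leads from an odd corner of `Bad` to a free site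
(corner of an `η`-closed square off `D`). -/
def NSf (D : Finset (ℤ × ℤ)) (η : Cfg) (Bad : Finset (ℤ × ℤ)) : Set Cfg :=
  {ω | ∃ s t : ℤ × ℤ, (∃ v ∈ Bad, Cor v s) ∧ (s.1 + s.2) % 2 = 1 ∧ Bd false D η t ∧
    ReflTransGen (PStep {v | v ∈ D ∧ ω v = false}) s t}

/-- The corners of colour `c` of `B`. -/
def Tc (c : Bool) (B : Finset (ℤ × ℤ)) : Set (ℤ × ℤ) := {u | (u.1 + u.2) % 2 = pr c ∧ ∃ v ∈ B, Cor v u}

theorem par_tc : Par c (Tc c Bad) := fun _ h => h.1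

theorem mon_true : MonC true ((LZ w s).indicator 1) := by
  intro ω ω' h
  by_cases h1 : ω ∈ LZ w s
  · rw [Set.indicator_of_mem h1, Set.indicator_of_mem (lz_mono h h1)]
    simp
  · rw [Set.indicator_of_notMem h1]
    exact Set.indicator_nonneg (fun _ _ => zero_le_one) _

theorem mon_false : MonC false ((LZ w s)ᶜ.indicator 1) := by
  intro ω ω' h
  by_cases h1 : ω ∈ LZ w s
  · rw [Set.indicator_of_notMem (show ω ∉ (LZ w s)ᶜ from fun h2 => h2 h1)]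
    exact Set.indicator_nonneg (fun _ _ => zero_le_one) _
  · have h2 : ω' ∉ LZ w s := by
      intro h2
      refine h1 (lz_mono (fun v hv => ?_) h2)
      cases h3 : ω v with
      | true => rfl
      | false =>
        rw [h v h3] at hv
        exact hv
    rw [Set.indicator_of_mem (show ω ∈ (LZ w s)ᶜ from h1),
      Set.indicator_of_mem (show ω' ∈ (LZ w s)ᶜ from h2)]
    simp

/-- The general form. -/
theorem frz (hQ : 1 ≤ Q) (hη : Good η) (hB : Bad ⊆ D) {F : Cfg → ℝ} (hF : MonC c F)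
    (hF0 : ∀ ω, 0 ≤ F ω) (hF1 : ∀ ω, F ω ≤ 1)
    (hP : ∀ ω, (∀ v, v ∉ D → ω v = η v) → (∀ y ∈ CT c D (Tc c Bad) ω, ¬ Bd c D η y) →
      F ω ≤ F (kill c (FKA.nb D (CT c D (Tc c Bad) ω)) ω)) :
    Ex Q D η F ≤ Ex Q (D \ Bad) (kill c Bad η) F +
      Ex Q D η ({ω | ∃ y ∈ CT c D (Tc c Bad) ω, Bd c D η y}.indicator 1) := by
  have hQ0 : 0 < Q := by linarith
  have h1 := H542.Q.Inf.inf_lo (T := Tc c Bad) (P := fun K => ∀ y ∈ K, ¬ Bd c D η y) hQ hη par_tc hB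
    (fun v hv u hu huv => ⟨hu, v, hv, huv⟩)
    (fun K hK y hy z _ hby _ => absurd hby (hK y hy)) hF hP
  set E : Set Cfg := {ω | ∃ y ∈ CT c D (Tc c Bad) ω, Bd c D η y} with hE
  set x := Ex Q (D \ Bad) (kill c Bad η) F with hx
  have hx0 : 0 ≤ x := Ex_nonneg hQ0 fun _ _ => hF0 _
  have h2 : ∀ ω, F ω ≤ {ω | ∀ y ∈ CT c D (Tc c Bad) ω, ¬ Bd c D η y}.indicator 1 ω * F ω +
      E.indicator 1 ω := by
    intro ω
    by_cases h3 : ω ∈ E
    · rw [Set.indicator_of_mem h3, Set.indicator_of_notMem, zero_mul, zero_add]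
      · exact hF1 ω
      · obtain ⟨y, hy, hby⟩ := h3
        exact fun h4 => h4 y hy hby
    · rw [Set.indicator_of_notMem h3, Set.indicator_of_mem, add_zero, Pi.one_apply, one_mul]
      intro y hy hby
      exact h3 ⟨y, hy, hby⟩
  have h3 : Ex Q D η F ≤ Ex Q D η (fun ω =>
      {ω | ∀ y ∈ CT c D (Tc c Bad) ω, ¬ Bd c D η y}.indicator 1 ω * F ω + E.indicator 1 ω) :=
    Ex_mono hQ0 fun S _ => h2 _
  rw [Ex_add] at h3
  have h4 : Ex Q D η (fun ω =>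
      {ω | ∀ y ∈ CT c D (Tc c Bad) ω, ¬ Bd c D η y}.indicator 1 ω * x) ≤ x := by
    conv_rhs => rw [← Ex_const (Q := Q) (D := D) (η := η) hQ0 x]
    refine Ex_mono hQ0 fun S _ => ?_
    refine mul_le_of_le_one_left hx0 ?_
    exact ind_le_one _ _
  have h5 : Ex Q D η (E.indicator 1) = Ex Q D η (fun ω => E.indicator 1 ω) := rfl
  rw [h5]
  linarith

theorem ind_sub' {A A' : Set Cfg} (h : A ⊆ A') (ω : Cfg) :
    A.indicator (1 : Cfg → ℝ) ω ≤ A'.indicator 1 ω :=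
  Set.indicator_le_indicator_of_subset h (fun _ => zero_le_one) ω

/-- **`Bad` closed.** -/
theorem frz_up (hQ : 1 ≤ Q) (hη : Good η) (hB : Bad ⊆ D) (hm : Mark D η w e₀)
    (hs : Odd (s.1 + s.2)) :
    Ex Q D η ((LZ w s).indicator 1) ≤ Ex Q (D \ Bad) (kill true Bad η) ((LZ w s).indicator 1) +
      Ex Q D η ((NSlo D η Bad ∅).indicator 1) := by
  have hQ0 : 0 < Q := by linarith
  refine (frz hQ hη hB mon_true (ind_nonneg _) (ind_le_one _) fun ω hω hK => ?_).trans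
    (add_le_add le_rfl (Ex_mono hQ0 fun S _ => ind_sub' ?_ _))
  · by_cases h1 : ω ∈ LZ w s
    · rw [Set.indicator_of_mem h1, Set.indicator_of_mem ((hm.float hη par_tc hω hK hs).1 h1)]
      simp
    · rw [Set.indicator_of_notMem h1]
      exact ind_nonneg _ _
  · rintro ω ⟨y, ⟨t, ⟨ht, v, hv, htv⟩, hty⟩, o, ho, hoc, hoy⟩
    refine ⟨t, y, ⟨v, hv, htv⟩, ht, Or.inl ⟨?_, o, ho, hoc, hoy⟩, hty⟩
    have h1 := hty.parity
    rw [Int.even_iff, ← h1]
    exact ht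

/-- **`Bad` open.** -/
theorem frz_lo (hQ : 1 ≤ Q) (hη : Good η) (hB : Bad ⊆ D) (hm : Mark D η w e₀)
    (hs : Odd (s.1 + s.2)) :
    Ex Q (D \ Bad) (kill false Bad η) ((LZ w s).indicator 1) ≤ Ex Q D η ((LZ w s).indicator 1) +
      Ex Q D η ((NSf D η Bad).indicator 1) := by
  have hQ0 : 0 < Q := by linarith
  have h0 : Ex Q D η ((LZ w s)ᶜ.indicator 1) ≤
      Ex Q (D \ Bad) (kill false Bad η) ((LZ w s)ᶜ.indicator 1) +
      Ex Q D η ((NSf D η Bad).indicator 1) := by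
    refine (frz hQ hη hB mon_false (ind_nonneg _) (ind_le_one _) fun ω hω hK => ?_).trans
      (add_le_add le_rfl (Ex_mono hQ0 fun S _ => ind_sub' ?_ _))
    · by_cases h1 : ω ∈ LZ w s
      · rw [Set.indicator_of_notMem (show ω ∉ (LZ w s)ᶜ from fun h2 => h2 h1)]
        exact ind_nonneg _ _
      · have h2 := fun h3 => h1 ((hm.float hη par_tc hω hK hs).2 h3)
        rw [Set.indicator_of_mem (show ω ∈ (LZ w s)ᶜ from h1),
          Set.indicator_of_mem (show _ ∈ (LZ w s)ᶜ from h2)]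
        simp
    · rintro ω ⟨y, ⟨t, ⟨ht, v, hv, htv⟩, hty⟩, hb⟩
      exact ⟨t, y, ⟨v, hv, htv⟩, ht, hb, hty⟩
  have key : ∀ (D : Finset (ℤ × ℤ)) (η : Cfg), Ex Q D η ((LZ w s)ᶜ.indicator 1) =
      1 - Ex Q D η ((LZ w s).indicator 1) := by
    intro D η
    have h1 : Ex Q D η ((LZ w s)ᶜ.indicator 1) =
        Ex Q D η (fun ω => 1 - (LZ w s).indicator 1 ω) := Ex_congr fun S _ => ind_compl _ _
    rw [h1, FKA.Ex_sub, Ex_const hQ0]
  rw [key, key] at h0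
  linarith

/-! ### With the sandwich -/

theorem wr_kill (hB : Bad ⊆ D) (h : w ∈ Wr D η) : w ∈ Wr (D \ Bad) (kill c Bad η) := by
  obtain ⟨h1, v, hv, h2, h3⟩ := h
  exact ⟨h1, v, fun h => hv (mem_sdiff.1 h).1, by rw [kill_out fun h => hv (hB h)]; exact h2, h3⟩

/-- **Upper side**: `Bad` is closed; the wired side of `P` is pushed in, the free side is pushed
out. -/
theorem lz_upper (hQ : 1 ≤ Q) (hη : Good η) (hζ : Good ζ) (hB : Bad ⊆ D) (hm : Mark D η w e₀)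
    (hCD : C ⊆ D \ Bad) (hCP : C ⊆ P) (hW : Joined P ζ (Wr P ζ))
    (hb : Bank C (D \ Bad) (kill true Bad η) (Wr P ζ))
    (he : Exit C P ζ (D \ Bad) (kill true Bad η)) (hwP : wP ∈ Wr P ζ)
    (hs : Odd (s.1 + s.2)) (hsC : ∀ v, Cor v s → v ∈ C) :
    Ex Q D η ((LZ w s).indicator 1) ≤ Ex Q P ζ ((LZ wP s).indicator 1) +
      Ex Q D η ((NSlo D η Bad ∅).indicator 1) := by
  obtain ⟨h1, h2⟩ := wr_kill (c := true) hB hm.wired
  exact (frz_up hQ hη hB hm hs).trans (add_le_add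
    (lz_sand hQ hζ (good_kill hη) hCD hCP hW hb he hwP h1 h2 hs hsC) le_rfl)

/-- **Lower side**: `Bad` is open; the wired side of `P` is pushed out, the free side is pushed
in. -/
theorem lz_lower (hQ : 1 ≤ Q) (hη : Good η) (hζ : Good ζ) (hB : Bad ⊆ D) (hm : Mark D η w e₀)
    (hCD : C ⊆ D \ Bad) (hCP : C ⊆ P)
    (hW : Joined (D \ Bad) (kill false Bad η) (Wr (D \ Bad) (kill false Bad η)))
    (hb : Bank C P ζ (Wr (D \ Bad) (kill false Bad η)))
    (he : Exit C (D \ Bad) (kill false Bad η) P ζ) (hwP : wP ∈ Wr P ζ)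
    (hs : Odd (s.1 + s.2)) (hsC : ∀ v, Cor v s → v ∈ C) :
    Ex Q P ζ ((LZ wP s).indicator 1) ≤ Ex Q D η ((LZ w s).indicator 1) +
      Ex Q D η ((NSf D η Bad).indicator 1) :=
  (lz_sand hQ (good_kill hη) hζ hCP hCD hW hb he (wr_kill hB hm.wired) hwP.1 hwP.2 hs hsC).trans
    (frz_lo hQ hη hB hm hs)

end Vale.Agent.P167.H692
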