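import Vale.Agent.P167.H692.Frz
import Vale.Agent.P167.H192.S2.Out

/-!
# P167, general `q`, Stage II, [S2-CLOSE]: the mark and the exits for histories and polygons

* `mark_of`: the first medial edge of the polygon is a mark of every domain `D ⊆ Dq S p k`;
* `exit_poly`, `exit_dk`: the exit conditions;
* `PL_eq`: 397's `PL` is an expectation of the loop measure.
-/

set_option autoImplicit false

namespace Vale.Agent.P167.H692

open Finset Relation Vale.Agent.P167 Vale.Agent.P167.FK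
open Vale.Agent.P145.FB (PStep)
open Vale.Agent.P167.FKA (Cor)
open Vale.Agent.P167.E6 (IsPolygon Encloses edges wiredOpen face dir)
open Vale.Agent.P167.H718 (Dq etaQ wE)
open Vale.Agent.P167.H161 (Rd)
open Vale.Agent.P167.H397.Q (blk LZ PL)
open Vale.Agent.P167.H192.Q (kill kill_in kill_out)
open Vale.Agent.P167.H72.SD (Wr Joined Bank om dk Fr Kc)

variable {n : ℕ} {p : ZMod n → ℤ × ℤ} {S : Finset (ℤ × ℤ)} {k j : ℕ} {A : Finset (Sym2 (ℤ × ℤ))}
  {C D P Bad : Finset (ℤ × ℤ)} {η ζ : Cfg}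

theorem closed_of (hA : A ⊆ edges S) {v : ℤ × ℤ} (h : v ∈ (op (om p k (edges S)))ᶜ) :
    v ∉ Dq S p k ∧ om p k A v = false := by
  have h1 : ¬ om p k (edges S) v = true := h
  rw [H72.SD.om_true] at h1
  push Not at h1
  refine ⟨fun h2 => h1.1 ((H718.mem_Dq').1 h2).1, ?_⟩
  by_contra h2
  rw [Bool.not_eq_false, H72.SD.om_true] at h2
  rcases h2 with h2 | ⟨i, h3, h4, h5⟩
  · exact h1.1 (hA h2)
  · exact h1.2 i h3 h4 h5

/-- Outer faces are joined by closed squares off the domain. -/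
theorem out_conn' (hp : IsPolygon p) (hS : Encloses p S) (hA : A ⊆ edges S) {f g : ℤ × ℤ}
    (hf : f ∉ S) (hg : g ∉ S) :
    ReflTransGen (PStep {v | v ∉ Dq S p k ∧ om p k A v = false}) (H192.rf f) (H192.rf g) :=
  rtg_mono' (fun _ hv => closed_of hA hv)
    (H192.S2.out_conn (k := k) hp hS (A := edges S) subset_rfl hf hg)

theorem rf_inj : Function.Injective H192.rf := by
  rintro ⟨a, b⟩ ⟨c, d⟩ h
  simp only [H192.rf, Prod.mk.injEq] at h
  ext <;> dsimp only <;> omega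

/-- Outer faces are joined to infinity by closed squares off the domain. -/
theorem out_inf (hp : IsPolygon p) (hS : Encloses p S) (hA : A ⊆ edges S) {f : ℤ × ℤ}
    (hf : f ∉ S) : {t : ℤ × ℤ | ReflTransGen
      (PStep {v | v ∉ Dq S p k ∧ om p k A v = false}) (H192.rf f) t}.Infinite := by
  have h1 : ((↑S : Set (ℤ × ℤ))ᶜ).Infinite := S.finite_toSet.infinite_compl
  refine (h1.image (f := H192.rf) rf_inj.injOn).mono ?_
  rintro _ ⟨g, hg, rfl⟩
  exact out_conn' hp hS hA hf fun h => hg (mem_coe.2 h)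

/-- **The mark.** -/
theorem mark_of (hp : IsPolygon p) (hS : Encloses p S) (hA : A ⊆ edges S) (hk : k + 1 < n)
    (hD : D ⊆ Dq S p k) (hη : ∀ v, v ∉ Dq S p k → η v = om p k A v) :
    Mark D η (H192.ro (p (-1))) (H192.me (E2.cs p)) where
  wired := by
    have h1 : (((n - 1 : ℕ) : ℕ) : ZMod n) = -1 := by
      rw [Nat.cast_sub (by omega)]
      simp
    refine ⟨H192.even_ro _, H192.sq s(p ((n - 2 : ℕ) : ZMod n), p ((n - 1 : ℕ) : ZMod n)), ?_⟩
    have h2 : ((n - 1 : ℕ) : ZMod n) = ((n - 2 : ℕ) : ZMod n) + 1 := by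
      rw [show n - 1 = (n - 2) + 1 by omega]
      push_cast
      ring
    obtain ⟨d, hd⟩ := hp.2.2 ((n - 2 : ℕ) : ZMod n)
    rw [h2, hd]
    have h3 : H192.ed (H192.sq s(p ((n - 2 : ℕ) : ZMod n), p ((n - 2 : ℕ) : ZMod n) + dir d)) =
        s(p ((n - 2 : ℕ) : ZMod n), p ((n - 2 : ℕ) : ZMod n) + dir d) := H192.ed_sq ⟨_, d, rfl⟩
    have h4 : H192.sq s(p ((n - 2 : ℕ) : ZMod n), p ((n - 2 : ℕ) : ZMod n) + dir d) ∉ Dq S p k := by
      intro h
      refine ((H718.mem_Dq').1 h).2 ?_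
      rw [h3]
      exact H718.mem_wE.2 ⟨n - 2, by omega, by omega, by rw [← hd]⟩
    refine ⟨fun h => h4 (hD h), ?_, ?_⟩
    · rw [hη _ h4, H72.SD.om_true]
      exact Or.inr ⟨n - 2, by omega, by omega, by rw [h3, ← hd]⟩
    · rw [← h1, h2, hd]
      obtain ⟨h5, h6⟩ := H192.ro_dir (p ((n - 2 : ℕ) : ZMod n)) d
      have h7 := H72.SD.ed_sqr_dir (p ((n - 2 : ℕ) : ZMod n)) d
      rw [← h7]
      unfold H72.SD.sqr
      constructor <;> dsimp only <;> omega
  left := by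
    rw [H192.ls_me]
    exact ReflTransGen.refl
  right := by
    rw [H192.rs_me]
    refine (out_inf (k := k) hp hS hA (E2.fc_cs hp hS)).mono fun t ht => rtg_mono' ?_ ht
    rintro v ⟨hv, h1⟩
    exact ⟨fun h => hv (hD h), by rw [hη v hv, h1]⟩

/-- The mark of the explored domain. -/
theorem mark_dk (hp : IsPolygon p) (hS : Encloses p S) (hA : A ⊆ edges S) (hk : k + 1 < n)
    (j : ℕ) : Mark (dk p k S A j) (om p k A) (H192.ro (p (-1))) (H192.me (E2.cs p)) :=
  mark_of hp hS hA hk sdiff_subset fun _ _ => rfl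

theorem etaQ_om {v : ℤ × ℤ} (hA : A ⊆ edges S) (hv : v ∉ Dq S p k) : etaQ p k v = om p k A v :=
  (QG.wired_out hA hv).symm

/-- The mark of the polygon. -/
theorem mark_dq (hp : IsPolygon p) (hS : Encloses p S) (hk : k + 1 < n) :
    Mark (Dq S p k) (etaQ p k) (H192.ro (p (-1))) (H192.me (E2.cs p)) :=
  mark_of (A := ∅) hp hS (empty_subset _) hk subset_rfl fun _ hv => etaQ_om (empty_subset _) hv

theorem wr_mem (hp : IsPolygon p) (hS : Encloses p S) (hk : k + 1 < n) :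
    H192.ro (p (-1)) ∈ Wr (Dq S p k) (etaQ p k) := (mark_dq hp hS hk).wired

/-- The wired bank of a polygon is joined. -/
theorem joined_dq (hp : IsPolygon p) :
    Joined (Dq S p k) (etaQ p k) (Wr (Dq S p k) (etaQ p k)) := by
  have key : ∀ s ∈ Wr (Dq S p k) (etaQ p k), ∃ i : ℕ, k ≤ i ∧ i < n ∧ s = H192.ro (p i) := by
    rintro s ⟨hse, v, hvD, hv, hvs⟩
    rw [etaQ_om (empty_subset (edges S)) hvD] at hv
    obtain ⟨i, hi1, hi2, h1⟩ := H72.SD.open_out (empty_subset (edges S)) hvD hv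
    obtain ⟨d, hd⟩ := hp.2.2 (i : ZMod n)
    have hv1 : v = H192.sq s(p i, p i + dir d) := by
      rw [← hd, ← h1, H192.sq_ed]
    have hc : s = H192.ro (p i) ∨ s = H192.ro (p i + dir d) := by
      have h3 : Cor (H72.SD.sqr (H192.ro (p i)) (H192.ro (p i + dir d))) s := by
        rw [H72.SD.ed_sqr_dir, ← hv1]
        exact hvs
      obtain ⟨h4, h5⟩ := H192.ro_dir (p i) d
      have he1 := Int.even_iff.1 (H192.even_ro (p i))
      have he2 := Int.even_iff.1 (H192.even_ro (p i + dir d))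
      have he3 := Int.even_iff.1 hse
      obtain ⟨h6, h7⟩ := h3
      unfold H72.SD.sqr at h6 h7
      dsimp only at h6 h7
      rw [Prod.ext_iff, Prod.ext_iff]
      omega
    rcases hc with rfl | rfl
    · exact ⟨i, hi1, by omega, rfl⟩
    · refine ⟨i + 1, by omega, hi2, ?_⟩
      rw [← hd]
      push_cast
      rfl
  have hcf : cf (Dq S p k) (etaQ p k) ∅ = cf (Dq S p k) (om p k ∅) ∅ := by
    funext v
    unfold cf
    by_cases hv : v ∈ Dq S p k
    · rw [if_pos hv, if_pos hv]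
    · rw [if_neg hv, if_neg hv, etaQ_om (empty_subset (edges S)) hv]
  intro w hw w' hw'
  obtain ⟨i, h1, h2, rfl⟩ := key w hw
  obtain ⟨i', h1', h2', rfl⟩ := key w' hw'
  rw [hcf]
  rcases le_total i i' with h | h
  · exact H72.SD.wired_chain hp _ subset_rfl h1 h h2'
  · exact H72.SD.PC_symm (H72.SD.wired_chain hp _ subset_rfl h1' h h2)

/-- The odd corners of the closed squares off a polygon are outer faces. -/
theorem face_of {v t : ℤ × ℤ} (hv : v ∉ Dq S p k)
    (h1 : etaQ p k v = false) (ht : Odd (t.1 + t.2)) (hvt : Cor v t) :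
    ∃ f, f ∉ S ∧ t = H192.rf f := by
  -- the edge of the square is not an edge of the domain
  have h2 : ¬ H192.cfg (edges S : Set (Sym2 (ℤ × ℤ))) v = true := by
    intro h3
    have h4 : H192.ed v ∈ edges S := mem_coe.1 (H192.cfg_true.1 h3)
    by_cases h5 : H192.ed v ∈ wE p k
    · have h6 : om p k ∅ v = true := H72.SD.om_true.2 (Or.inr (H718.mem_wE.1 h5))
      rw [← etaQ_om (empty_subset (edges S)) hv, h1] at h6
      exact Bool.noConfusion h6
    · exact hv ((H718.mem_Dq').2 ⟨h4, h5⟩)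
  -- the other odd corner
  obtain ⟨t', ht', htt⟩ : ∃ t' : ℤ × ℤ, Odd (t'.1 + t'.2) ∧
      PStep (op (H192.cfg (edges S : Set (Sym2 (ℤ × ℤ)))))ᶜ t t' := by
    obtain ⟨h3, h4⟩ := hvt
    refine ⟨(2 * v.1 + 1 - t.1, 2 * v.2 + 1 - t.2), ?_, ?_, ?_, ?_⟩
    · rw [Int.odd_iff] at ht ⊢
      dsimp only
      omega
    · dsimp only
      omega
    · dsimp only
      omega
    · have e : ((min t.1 (2 * v.1 + 1 - t.1), min t.2 (2 * v.2 + 1 - t.2)) : ℤ × ℤ) = v := by
        ext <;> dsimp only <;> omega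
      show (min t.1 (2 * v.1 + 1 - t.1), min t.2 (2 * v.2 + 1 - t.2)) ∈ _
      rw [e]
      exact h2
  have hrf : ∀ t : ℤ × ℤ, Odd (t.1 + t.2) → t = H192.rf (H192.rf' t) := by
    intro t ht
    rw [Int.odd_iff] at ht
    ext <;> simp only [H192.rf, H192.rf'] <;> omega
  rw [hrf t ht, hrf t' ht'] at htt
  obtain ⟨v0, r, h3, h4, h5⟩ := H192.fStep_iff.1 htt
  refine ⟨H192.rf' t, fun h6 => h5 ?_, hrf t ht⟩
  rw [mem_coe, E2.mem_edges]
  rw [← h3] at h6
  exact Or.inr (by rwa [add_sub_cancel_right])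

/-- **Exits of a polygon.** -/
theorem exit_poly (hp : IsPolygon p) (hS : Encloses p S)
    (h : ∀ t a v : ℤ × ℤ, Odd (t.1 + t.2) → a ∈ C → Cor a t → v ∉ C → (v ∈ D ∨ η v = false) →
      Cor v t → ∃ f, f ∉ S ∧ t = H192.rf f) :
    Exit C D η (Dq S p k) (etaQ p k) := by
  intro t a v h1 h2 h3 h4 h5 h6
  obtain ⟨f, hf, rfl⟩ := h t a v h1 h2 h3 h4 h5 h6
  refine (out_inf (k := k) hp hS (empty_subset _) hf).mono fun t ht => rtg_mono' ?_ ht
  rintro v ⟨hv, h7⟩
  exact ⟨hv, by rw [etaQ_om (empty_subset _) hv, h7]⟩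

/-- **Exits of the explored domain** (with the frozen closed squares `Bad`). -/
theorem exit_dk (hp : IsPolygon p) (hS : Encloses p S) (hA : A ⊆ edges S)
    (hB : Bad ⊆ dk p k S A j)
    (h : ∀ t a v : ℤ × ℤ, Odd (t.1 + t.2) → a ∈ C → Cor a t → v ∉ C → (v ∈ P ∨ ζ v = false) →
      Cor v t → ∃ t', (t' ∈ Fr p k S A j ∨ ∃ f, f ∉ S ∧ t' = H192.rf f) ∧
        ReflTransGen (PStep {v | v ∈ Bad ∨ v ∈ Kc p k S A j}) t t') :
    Exit C P ζ (dk p k S A j \ Bad) (kill true Bad (om p k A)) := by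
  intro t a v h1 h2 h3 h4 h5 h6
  obtain ⟨t', ht', h7⟩ := h t a v h1 h2 h3 h4 h5 h6
  have hin : ∀ v, v ∈ Bad ∨ v ∈ Kc p k S A j →
      v ∉ dk p k S A j \ Bad ∧ kill true Bad (om p k A) v = false := by
    rintro v (hv | ⟨hv, hv'⟩)
    · exact ⟨fun h => (mem_sdiff.1 h).2 hv, by rw [kill_in hv]; rfl⟩
    · have h8 : v ∉ dk p k S A j := fun h => (mem_sdiff.1 h).2 hv
      exact ⟨fun h => h8 (mem_sdiff.1 h).1, by rw [kill_out fun h => h8 (hB h)]; exact hv'⟩
  have hout : ∀ v, v ∉ Dq S p k ∧ om p k A v = false →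
      v ∉ dk p k S A j \ Bad ∧ kill true Bad (om p k A) v = false := by
    rintro v ⟨hv, hv'⟩
    have h8 : v ∉ dk p k S A j := fun h => hv (mem_sdiff.1 h).1
    exact ⟨fun h => h8 (mem_sdiff.1 h).1, by rw [kill_out fun h => h8 (hB h)]; exact hv'⟩
  obtain ⟨f, hf, h8⟩ : ∃ f, f ∉ S ∧ ReflTransGen (PStep {v | v ∉ dk p k S A j \ Bad ∧
      kill true Bad (om p k A) v = false}) t (H192.rf f) := by
    rcases ht' with h9 | ⟨f, hf, rfl⟩
    · obtain ⟨j', -, h10, h11⟩ := H72.SD.free_dk hp hS hA h9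
      exact ⟨_, h10, (rtg_mono' hin h7).trans
        (FKA.rtg_symm (rtg_mono' (fun v hv => hin v (Or.inr hv)) h11))⟩
    · exact ⟨f, hf, rtg_mono' hin h7⟩
  refine (out_inf (k := k) hp hS hA hf).mono fun t ht => h8.trans (rtg_mono' hout ht)

/-- **397's `PL` as an expectation of the loop measure.** -/
theorem PL_eq {q : ℝ} (hq : 0 < q) (hp : IsPolygon p) (hS : Encloses p S) (f : ℤ × ℤ) :
    PL q p k S f = Ex (√q) (Dq S p k) (etaQ p k)
      ((LZ (H192.ro (p (-1))) (H192.rf f)).indicator 1) :=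
  H718.mean_eq_Ex hq hp hS _

end Vale.Agent.P167.H692
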